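import Vale.Agent.Lib.P344.PrimeC

/-!
# P344: separate lower bounds for the additive gates and for the scalar gates of a linear circuit
computing the discrete Fourier transform
-/

namespace Vale.Agent.Results.P344.ASplitCounts

open Vale.Agent.Lib.P344

/-- `true` on the scalar multiplication gates `c * u` -/
def isScalar : Gate → Bool
  | Gate.smul _ _ => true
  | _ => false

/-- the number of scalar multiplication gates of a circuit -/
def numScalar {n : ℕ} (C : Circuit n) : ℕ := C.gates.countP isScalar

/-- the number of addition and subtraction gates of a circuit -/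
def numAdd {n : ℕ} (C : Circuit n) : ℕ := C.gates.countP (fun g => !isScalar g)

theorem isScalar_eq (g : Gate) : isScalar g = g.isSmul := by
  cases g <;> rfl

theorem card_filter_getD (l : List Gate) (d : Gate) (q : Gate → Bool) :
    ((Finset.range l.length).filter (fun k => q (l.getD k d) = true)).card = l.countP q := by
  induction l using List.reverseRecOn with
  | nil => simp
  | append_singleton l a ih =>
    rw [List.length_append, List.length_singleton, Finset.range_add_one, Finset.filter_insert,
      List.countP_append]
    have h1 : (l ++ [a]).getD l.length d = a := by simp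
    have h2 : (Finset.range l.length).filter (fun k => q ((l ++ [a]).getD k d) = true)
        = (Finset.range l.length).filter (fun k => q (l.getD k d) = true) := by
      refine Finset.filter_congr fun k hk => ?_
      rw [List.getD_append _ _ _ _ (Finset.mem_range.1 hk)]
    rw [h1, h2]
    by_cases hq : q a = true
    · rw [if_pos hq, Finset.card_insert_of_notMem (by simp), ih]
      simp [hq]
    · rw [if_neg hq, ih]
      simp [hq]

theorem numScalar_eq {n : ℕ} (C : Circuit n) :
    (smulSet C.size (fun k => C.gates.getD k (Gate.add 0 0))).card = numScalar C := by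
  unfold smulSet numScalar Circuit.size
  rw [← card_filter_getD C.gates (Gate.add 0 0) isScalar]
  simp only [isScalar_eq]

theorem numAdd_eq {n : ℕ} (C : Circuit n) :
    (addSet C.size (fun k => C.gates.getD k (Gate.add 0 0))).card = numAdd C := by
  unfold addSet numAdd Circuit.size
  rw [← card_filter_getD C.gates (Gate.add 0 0) (fun g => !isScalar g)]
  congr 1
  refine Finset.filter_congr fun k _ => ?_
  rw [isScalar_eq]
  simp

/-- (1) For every `n ≥ 2`, a linear circuit computing `F_n` has at least `3 n - 3 - n / q` addition
and subtraction gates (`q` the least prime factor of `n`) and at least `n - d(n)` scalar gates.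
(2) For every prime `p`, a linear circuit computing `F_p` has at least `3 p - 4` addition and
subtraction gates and at least `2 p - 3 - d(p - 1)` scalar gates.
(3) Every gate is of exactly one of the two kinds. -/
theorem result :
    (∀ (n : ℕ), 2 ≤ n → ∀ C : Circuit n, C.ComputesDFT →
      3 * n ≤ numAdd C + n / n.minFac + 3 ∧ n ≤ numScalar C + (Nat.divisors n).card) ∧
    (∀ (p : ℕ), p.Prime → ∀ C : Circuit p, C.ComputesDFT →
      3 * p ≤ numAdd C + 4 ∧ 2 * p ≤ numScalar C + 3 + (Nat.divisors (p - 1)).card) ∧
    (∀ (n : ℕ) (C : Circuit n), numScalar C + numAdd C = C.size) := by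
  refine ⟨?_, ?_, ?_⟩
  · intro n hn C h
    have : NeZero n := ⟨by omega⟩
    have h1 := card_smulSet_ge C.coeff_isTrace h.hasFrows
    have h2 := card_addSet_ge' C.coeff_isTrace h.hasRows hn
    rw [numScalar_eq] at h1
    rw [numAdd_eq] at h2
    exact ⟨h2, by omega⟩
  · intro p hp C h
    have : Fact p.Prime := ⟨hp⟩
    have h1 := card_smulSet_ge_prime C.coeff_isTrace h.hasRows
    have h2 := card_addSet_ge' C.coeff_isTrace h.hasRows hp.two_le
    rw [numScalar_eq] at h1
    rw [numAdd_eq] at h2
    have h4 : p / p.minFac = 1 := by
      rw [hp.minFac_eq]
      exact Nat.div_self hp.pos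
    exact ⟨by omega, h1⟩
  · intro n C
    have h3 := card_smulSet_add_card_addSet C.size (fun k => C.gates.getD k (Gate.add 0 0))
    rw [numScalar_eq, numAdd_eq] at h3
    exact h3

end Vale.Agent.Results.P344.ASplitCounts
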