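import Vale.Agent.Lib.P344.Main

namespace Vale.Agent.Results.P344.AllNStrong

open Vale.Agent.Lib.P344

/-- For every `n ≥ 2`, every linear circuit (gates `u + v`, `u - v`, `c * u` with arbitrary complex
`c`, each of cost one) that computes the discrete Fourier transform `F_n` exactly has at least
`4 n - 3 - n / q - d(n)` gates, where `q` is the least prime factor of `n` and `d(n)` is the number
of divisors of `n`. -/
theorem result (n : ℕ) (hn : 2 ≤ n) (C : Circuit n) (hC : C.ComputesDFT) :
    4 * n ≤ C.size + 3 + n / n.minFac + (Nat.divisors n).card :=
  hC.size_ge' hn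

end Vale.Agent.Results.P344.AllNStrong
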