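import Vale.Agent.Lib.P344.PrimeC

namespace Vale.Agent.Results.P344.Prime5p

open Vale.Agent.Lib.P344

/-- For every prime `p`, every linear circuit (gates `u + v`, `u - v`, `c * u` with arbitrary
complex `c`, each of cost one) that computes the discrete Fourier transform `F_p` exactly has at
least `5 p - 7 - d(p - 1)` gates, where `d` is the number of divisors. -/
theorem result (p : ℕ) (hp : p.Prime) (C : Circuit p) (hC : C.ComputesDFT) :
    5 * p ≤ C.size + 7 + (Nat.divisors (p - 1)).card :=
  haveI : Fact p.Prime := ⟨hp⟩
  hC.size_ge_prime

end Vale.Agent.Results.P344.Prime5p
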